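import Vale.Agent.P069.H505.SumBasis

/-!
# A monotone Schauder basis of the counterexample

`Z = (⨁ X n)_2`, `X n` the dual of the renormed Hilbert space `Y n`.  The coordinate functionals of
`Y n` (over the nodes `t` of the tree), enumerated such that ancestors come first, form a monotone
Schauder basis of `Z`.
-/

set_option autoImplicit false

open Filter Topology Finset
open scoped ENNReal

namespace Vale.Agent.P069

noncomputable section

namespace Bas

/-- The coordinate functional `toY n w ↦ w t`. -/
def cf (n : ℕ) (t : List ℕ) : XX n :=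
  (lp.evalCLM ℝ (fun _ : List ℕ => ℝ) 2 t).comp (cleY n).symm.toContinuousLinearMap

theorem cf_apply (n : ℕ) (t : List ℕ) (w : HH) : cf n t (toY n w) = w t := by
  have h1 : (cleY n).symm (toY n w) = w := (cleY n).symm_apply_apply w
  change lp.evalCLM ℝ (fun _ : List ℕ => ℝ) 2 t ((cleY n).symm (toY n w)) = w t
  rw [h1]
  rfl

/-- Evaluation at the basis vector `e_t` of `Y n`. -/
def ff (n : ℕ) (t : List ℕ) : StrongDual ℝ (XX n) :=
  NormedSpace.inclusionInDoubleDual ℝ (YY n) (toY n (ee t))

theorem ff_apply (n : ℕ) (t : List ℕ) (x : XX n) : ff n t x = x (toY n (ee t)) := rfl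

theorem xx_norm_le {n : ℕ} {x : XX n} {C : ℝ} (hC : 0 ≤ C)
    (h : ∀ w, |x (toY n w)| ≤ C * ‖toY n w‖) : ‖x‖ ≤ C := by
  refine ContinuousLinearMap.opNorm_le_bound _ hC fun y => ?_
  obtain ⟨w, rfl⟩ := toY_surjective n y
  exact h w

theorem sum_ff_apply (n : ℕ) (D : Finset (List ℕ)) (x : XX n) (w : HH) :
    (∑ t ∈ D, ff n t x • cf n t) (toY n w) = x (toY n (res D w)) := by
  rw [res_eq, map_sum, map_sum, _root_.sum_apply]
  refine sum_congr rfl fun t _ => ?_
  rw [_root_.smul_apply, cf_apply, map_smul, map_smul, smul_eq_mul, smul_eq_mul, ff_apply]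
  ring

theorem tendsto_of_norm_le {ι E F : Type*} [NormedAddCommGroup E] [NormedAddCommGroup F]
    {l : Filter ι} {f : ι → E} {x : E} {g : ι → F} {y : F} (h : ∀ i, ‖f i - x‖ ≤ ‖g i - y‖)
    (hg : Tendsto g l (𝓝 y)) : Tendsto f l (𝓝 x) := by
  rw [tendsto_iff_norm_sub_tendsto_zero] at hg ⊢
  exact squeeze_zero (fun _ => norm_nonneg _) h hg

/-- Every element of `X n` is the limit of its partial expansions. -/
theorem tendsto_cf (n : ℕ) (x : XX n) :
    Tendsto (fun s : Finset (List ℕ) => ∑ t ∈ s, ff n t x • cf n t) atTop (𝓝 x) := by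
  set φ : StrongDual ℝ HH := x.comp (cleY n).toContinuousLinearMap with hφ
  set h : HH := (InnerProductSpace.toDual ℝ HH).symm φ with hh
  have hx : ∀ w, x (toY n w) = inner ℝ h w := by
    intro w
    have : inner ℝ h w = φ w := by
      rw [hh, InnerProductSpace.toDual_symm_apply]
    rw [this]
    rfl
  have hres : ∀ (s : Finset (List ℕ)) (w : HH), inner ℝ h (res s w) = inner ℝ (res s h) w := by
    intro s w
    rw [res_eq, res_eq, inner_sum, sum_inner]
    refine sum_congr rfl fun t _ => ?_
    have h1 : inner ℝ (ee t) w = w t := by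
      rw [ee, lp.inner_single_left]
      simp
    have h2 : inner ℝ h (ee t) = h t := by
      rw [ee, lp.inner_single_right]
      simp
    rw [inner_smul_right, inner_smul_left, h1, h2]
    simp
    ring
  have hdist : ∀ s : Finset (List ℕ),
      ‖(∑ t ∈ s, ff n t x • cf n t) - x‖ ≤ ‖res s h - h‖ := by
    intro s
    refine xx_norm_le (norm_nonneg _) fun w => ?_
    have e : ((∑ t ∈ s, ff n t x • cf n t) - x) (toY n w) = inner ℝ (res s h - h) w := by
      rw [inner_sub_left, ← hres, ← hx w, ← hx (res s w), _root_.sub_apply, sum_ff_apply]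
    rw [e]
    calc |inner ℝ (res s h - h) w| ≤ ‖res s h - h‖ * ‖w‖ := abs_real_inner_le_norm _ _
      _ ≤ ‖res s h - h‖ * ‖toY n w‖ := by
          gcongr
          exact norm_le_toY n w
  have hlim : Tendsto (fun s : Finset (List ℕ) => res s h) atTop (𝓝 h) := by
    have h1 := lp.hasSum_single (p := 2) (by norm_num) h
    have h2 : (fun s : Finset (List ℕ) => res s h) = fun s => ∑ t ∈ s, lp.single 2 t (h t) := by
      funext s
      rw [res_eq]
      refine sum_congr rfl fun t _ => ?_
      rw [ee, ← lp.single_smul]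
      simp
    rw [h2]
    exact h1
  exact tendsto_of_norm_le (E := XX n) (fun s => hdist s) hlim

theorem sys_XX : Sys cf ff where
  ortho n t s := by
    rw [ff_apply, cf_apply]
    by_cases h : t = s
    · subst h
      rw [if_pos rfl, ee_self]
    · rw [if_neg h, ee_ne (Ne.symm h)]
  contr n D hD x := by
    have hx0 : 0 ≤ ‖x‖ := norm_nonneg x
    refine xx_norm_le hx0 fun w => ?_
    rw [sum_ff_apply]
    calc |x (toY n (res D w))| ≤ ‖x‖ * ‖toY n (res D w)‖ := x.le_opNorm _
      _ ≤ ‖x‖ * ‖toY n w‖ := by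
          gcongr
          exact norm_toY_res_le hD n w
  dense n x := tendsto_cf n x

/-- The Riesz isomorphism, linear over the reals. -/
def riesz : StrongDual ℝ HH ≃L[ℝ] HH where
  toFun := (InnerProductSpace.toDual ℝ HH).symm
  invFun := InnerProductSpace.toDual ℝ HH
  map_add' x y := (InnerProductSpace.toDual ℝ HH).symm.map_add x y
  map_smul' c x := by
    rw [LinearIsometryEquiv.map_smulₛₗ]
    simp
  left_inv x := (InnerProductSpace.toDual ℝ HH).apply_symm_apply x
  right_inv x := (InnerProductSpace.toDual ℝ HH).symm_apply_apply x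
  continuous_toFun := (InnerProductSpace.toDual ℝ HH).symm.continuous
  continuous_invFun := (InnerProductSpace.toDual ℝ HH).continuous

/-- `X n` is isomorphic to a Hilbert space. -/
def cleX (n : ℕ) : XX n ≃L[ℝ] HH :=
  ((cleY n).arrowCongr (ContinuousLinearEquiv.refl ℝ ℝ)).symm.trans riesz

end Bas

end

end Vale.Agent.P069
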