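import Vale.Agent.P069.H505.Basis

/-!
# The counterexample with all its properties
-/

set_option autoImplicit false

open Filter Topology TopologicalSpace
open scoped ENNReal

namespace Vale.Agent.P069

/-- The space `Z = (⨁ X n)_2` with all its properties. -/
theorem exists_space :
    ∃ (X : ℕ → Type) (_ : ∀ n, NormedAddCommGroup (X n)) (_ : ∀ n, NormedSpace ℝ (X n)),
      (∀ n, Nonempty (X n ≃L[ℝ] lp (fun _ : List ℕ => ℝ) 2)) ∧
      CompleteSpace (lp X 2) ∧ SeparableSpace (lp X 2) ∧ ¬ FiniteDimensional ℝ (lp X 2) ∧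
      IsReflexive (lp X 2) ∧
      (∃ b : SchauderBasis ℝ (lp X 2), ∀ N : ℕ, ‖b.proj N‖ ≤ 1) ∧
      IsAMUC (normSeminorm ℝ (lp X 2)) ∧
      (∃ a : ℝ, 0 < a ∧ ∀ t : ℝ, 0 < t → t ≤ 1 →
        ((a * t ^ 2 : ℝ) : EReal) ≤ amucModulus (normSeminorm ℝ (lp X 2)) t) ∧
      ¬ AUCRenormable (lp X 2) := by
  have hD' : Dense {u : lp XX 2 | TwoAMUC (1 / 16) u} :=
    dense_twoAMUC_lp (by norm_num) dense_twoAMUC_XX
  have hN : ¬ AUCRenormable (lp XX 2) :=
    not_aucRenormable (κ := 1 / 2) (by norm_num) fun n => (goodTree_XX n).lp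
  refine ⟨XX, inferInstance, inferInstance, fun n => ⟨Bas.cleX n⟩, inferInstance,
    separableSpace_lp XX, ?_, isReflexive_lp isReflexive_XX,
    Bas.exists_monotone_basis Bas.sys_XX, isAMUC_of_dense (by norm_num) hD',
    ⟨1 / 16 / 6, by positivity, fun t ht ht1 =>
      sq_le_amucModulus (by norm_num) (by norm_num) hD' ht ht1⟩, hN⟩
  intro hfin
  exact hN aucRenormable_of_finiteDimensional

end Vale.Agent.P069
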