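import Vale.Agent.P069.Bdl.B1
import Mathlib.Analysis.Normed.Module.Bases

/-!
# Monotone Schauder bases of `ℓ²`-sums

If every `X n` has a system of vectors indexed by the nodes of the tree `List ℕ` whose partial sums
over finite ancestor-closed sets are contractions, then `(⨁ X n)_2` has a monotone Schauder basis.
-/

set_option autoImplicit false

open Filter Topology Finset
open scoped ENNReal

namespace Vale.Agent.P069

noncomputable section

namespace Bas

/-! ### the enumeration -/

/-- The `i`-th node: a summand and a node of the tree. -/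
def idx (i : ℕ) : ℕ × List ℕ := ((Nat.unpair i).1, Denumerable.ofNat (List ℕ) (Nat.unpair i).2)

/-- The position of the node `t` in the summand `n`. -/
def pos (n : ℕ) (t : List ℕ) : ℕ := Nat.pair n (Encodable.encode t)

theorem idx_pos (n : ℕ) (t : List ℕ) : idx (pos n t) = (n, t) := by
  simp [idx, pos]

theorem pos_idx (i : ℕ) : pos (idx i).1 (idx i).2 = i := by
  simp [idx, pos]

theorem idx_injective : Function.Injective idx := by
  intro i j h
  rw [← pos_idx i, ← pos_idx j, h]

theorem pos_lt (n k : ℕ) (t : List ℕ) : pos n t < pos n (k :: t) := by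
  apply Nat.pair_lt_pair_right
  rw [Encodable.encode_list_cons]
  exact Nat.lt_succ_of_le (Nat.right_le_pair _ _)

/-- The nodes of the summand `n` among the first `N`. -/
def DD (N n : ℕ) : Finset (List ℕ) :=
  ((range N).filter fun i => (idx i).1 = n).image fun i => (idx i).2

theorem mem_DD {N n : ℕ} {t : List ℕ} : t ∈ DD N n ↔ pos n t < N := by
  unfold DD
  rw [mem_image]
  constructor
  · rintro ⟨i, hi, rfl⟩
    rw [mem_filter, mem_range] at hi
    obtain ⟨h1, rfl⟩ := hi
    rw [pos_idx]
    exact h1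
  · intro h
    exact ⟨pos n t, by rw [mem_filter, mem_range, idx_pos]; exact ⟨h, rfl⟩, by rw [idx_pos]⟩

theorem DD_closed (N n : ℕ) : ∀ k t, k :: t ∈ DD N n → t ∈ DD N n := by
  intro k t h
  rw [mem_DD] at h ⊢
  exact (pos_lt n k t).trans h

/-! ### basis vectors, coordinates and partial sums -/

variable {X : ℕ → Type} [∀ n, NormedAddCommGroup (X n)] [∀ n, NormedSpace ℝ (X n)]
  (c : ∀ n, List ℕ → X n) (f : ∀ n, List ℕ → StrongDual ℝ (X n))

/-- The basis vectors. -/
def bas (i : ℕ) : lp X 2 := lp.single 2 (idx i).1 (c (idx i).1 (idx i).2)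

/-- The coordinate functionals. -/
def crd (i : ℕ) : StrongDual ℝ (lp X 2) := (f (idx i).1 (idx i).2).comp (prj X (idx i).1)

theorem crd_apply (i : ℕ) (z : lp X 2) : crd f i z = f (idx i).1 (idx i).2 (z (idx i).1) := rfl

/-- The partial sum operators. -/
def PP (N : ℕ) : lp X 2 →L[ℝ] lp X 2 := ∑ i ∈ range N, (crd f i).smulRight (bas c i)

theorem PP_apply (N : ℕ) (z : lp X 2) : PP c f N z = ∑ i ∈ range N, crd f i z • bas c i := by
  rw [PP, _root_.sum_apply]
  rfl

theorem PP_coord (N : ℕ) (z : lp X 2) (n : ℕ) :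
    (PP c f N z) n = ∑ t ∈ DD N n, f n t (z n) • c n t := by
  rw [PP_apply, lp.coeFn_sum, Finset.sum_apply, DD, sum_image]
  · rw [sum_filter]
    refine sum_congr rfl fun i _ => ?_
    have h1 : (crd f i z • bas c i : lp X 2) n = crd f i z • (bas c i n) := rfl
    rw [h1, bas]
    by_cases h : (idx i).1 = n
    · rw [if_pos h, crd_apply]
      subst h
      rw [lp.single_apply_self]
    · rw [if_neg h, lp.single_apply_ne _ _ _ (Ne.symm h), smul_zero]
  · intro i hi j hj hij
    rw [coe_filter, Set.mem_ofPred_eq] at hi hj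
    apply idx_injective
    exact Prod.ext (hi.2.trans hj.2.symm) hij

/-- The hypotheses on the systems in the summands. -/
structure Sys : Prop where
  ortho : ∀ n t s, f n t (c n s) = if t = s then 1 else 0
  contr : ∀ n (D : Finset (List ℕ)), (∀ k t, k :: t ∈ D → t ∈ D) → ∀ x,
    ‖∑ t ∈ D, f n t x • c n t‖ ≤ ‖x‖
  dense : ∀ n x, Tendsto (fun s : Finset (List ℕ) => ∑ t ∈ s, f n t x • c n t) atTop (𝓝 x)

variable {c f}

theorem norm_PP_apply_le (h : Sys c f) (N : ℕ) (z : lp X 2) : ‖PP c f N z‖ ≤ ‖z‖ := by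
  refine le_of_sq_le_sq ?_ (norm_nonneg _)
  refine hasSum_le (fun n => ?_) (lp_hasSum_sq (PP c f N z)) (lp_hasSum_sq z)
  have h1 : ‖(PP c f N z) n‖ ≤ ‖z n‖ := by
    rw [PP_coord]
    exact h.contr n _ (DD_closed N n) _
  gcongr

theorem norm_PP_le (h : Sys c f) (N : ℕ) : ‖PP c f N‖ ≤ 1 :=
  ContinuousLinearMap.opNorm_le_bound _ zero_le_one fun z => by
    rw [one_mul]
    exact norm_PP_apply_le h N z

theorem ortho (h : Sys c f) (i j : ℕ) : crd f i (bas c j) = if i = j then 1 else 0 := by
  rw [crd_apply, bas]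
  by_cases h1 : (idx j).1 = (idx i).1
  · have h2 : ∀ (m n : ℕ) (s t : List ℕ), m = n →
        f n t ((lp.single 2 m (c m s) : lp X 2) n) = if t = s then 1 else 0 := by
      intro m n s t hmn
      subst hmn
      rw [lp.single_apply_self, h.ortho]
    rw [h2 _ _ _ _ h1]
    by_cases hij : i = j
    · subst hij
      rw [if_pos rfl, if_pos rfl]
    · rw [if_neg hij, if_neg]
      intro h3
      exact hij (idx_injective (Prod.ext h1.symm h3))
  · rw [lp.single_apply_ne _ _ _ (Ne.symm h1), map_zero, if_neg]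
    rintro rfl
    exact h1 rfl

theorem PP_bas (h : Sys c f) {N i : ℕ} (hi : i < N) : PP c f N (bas c i) = bas c i := by
  rw [PP_apply, sum_eq_single i]
  · rw [ortho h, if_pos rfl, one_smul]
  · intro j _ hj
    rw [ortho h, if_neg hj, zero_smul]
  · intro h'
    exact absurd (mem_range.2 hi) h'

/-- The vectors on which the partial sums converge. -/
def GG (c : ∀ n, List ℕ → X n) (f : ∀ n, List ℕ → StrongDual ℝ (X n)) : Submodule ℝ (lp X 2) where
  carrier := {z | Tendsto (fun N => PP c f N z) atTop (𝓝 z)}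
  zero_mem' := by simp
  add_mem' := by
    intro x y hx hy
    simp only [Set.mem_ofPred_eq, map_add] at hx hy ⊢
    exact hx.add hy
  smul_mem' := by
    intro a x hx
    simp only [Set.mem_ofPred_eq, map_smul] at hx ⊢
    exact hx.const_smul a

theorem mem_GG {z : lp X 2} : z ∈ GG c f ↔ Tendsto (fun N => PP c f N z) atTop (𝓝 z) := Iff.rfl

theorem bas_mem (h : Sys c f) (i : ℕ) : bas c i ∈ GG c f := by
  rw [mem_GG]
  refine tendsto_const_nhds.congr' ?_
  filter_upwards [eventually_gt_atTop i] with N hN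
  exact (PP_bas h hN).symm

theorem isClosed_GG (h : Sys c f) : IsClosed (GG c f : Set (lp X 2)) := by
  rw [← closure_subset_iff_isClosed]
  intro z hz
  show Tendsto (fun N => PP c f N z) atTop (𝓝 z)
  rw [Metric.tendsto_atTop]
  intro ε hε
  obtain ⟨y, hy, hyz⟩ := Metric.mem_closure_iff.1 hz (ε / 3) (by positivity)
  have hy' : Tendsto (fun N => PP c f N y) atTop (𝓝 y) := hy
  rw [Metric.tendsto_atTop] at hy'
  obtain ⟨N₀, hN₀⟩ := hy' (ε / 3) (by positivity)
  refine ⟨N₀, fun N hN => ?_⟩
  have h1 := hN₀ N hN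
  have h2 : dist (PP c f N z) (PP c f N y) ≤ dist z y := by
    rw [dist_eq_norm, dist_eq_norm, ← map_sub]
    exact norm_PP_apply_le h N _
  calc dist (PP c f N z) z ≤ dist (PP c f N z) (PP c f N y) + dist (PP c f N y) y + dist y z :=
        dist_triangle4 _ _ _ _
    _ < ε := by
        rw [dist_comm y z]
        linarith

theorem single_mem (h : Sys c f) (n : ℕ) (x : X n) : (lp.single 2 n x : lp X 2) ∈ GG c f := by
  have h1 := h.dense n x
  have h2 : Tendsto (fun s : Finset (List ℕ) => inc X n (∑ t ∈ s, f n t x • c n t))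
      atTop (𝓝 (inc X n x)) := ((inc X n).continuous.tendsto _).comp h1
  refine (isClosed_GG h).mem_of_tendsto h2 (Eventually.of_forall fun s => ?_)
  show inc X n (∑ t ∈ s, f n t x • c n t) ∈ GG c f
  rw [map_sum]
  refine sum_mem fun t _ => ?_
  rw [map_smul]
  refine (GG c f).smul_mem _ ?_
  have h3 := bas_mem h (pos n t)
  unfold bas at h3
  rw [idx_pos] at h3
  exact h3

theorem tendsto_PP (h : Sys c f) (z : lp X 2) : Tendsto (fun N => PP c f N z) atTop (𝓝 z) := by
  have h1 := lp.hasSum_single (p := 2) (by norm_num) z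
  have h2 : Tendsto (fun s : Finset ℕ => ∑ n ∈ s, (lp.single 2 n (z n) : lp X 2)) atTop (𝓝 z) := h1
  exact (isClosed_GG h).mem_of_tendsto h2 (Eventually.of_forall fun s => sum_mem fun n _ =>
    single_mem h n _)

/-- The basis. -/
def zbasis (h : Sys c f) : SchauderBasis ℝ (lp X 2) where
  basis := bas c
  coord := crd f
  ortho i j := by
    by_cases hij : i = j
    · subst hij
      rw [ortho h, if_pos rfl]
      simp
    · rw [ortho h, if_neg hij]
      simp [hij]
  expansion z := by
    have h := tendsto_PP h z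
    simp_rw [PP_apply] at h
    rw [HasSum, SummationFilter.conditional_filter_eq_map_range, tendsto_map'_iff]
    exact h

theorem norm_proj_le (h : Sys c f) (N : ℕ) : ‖(zbasis h).proj N‖ ≤ 1 := norm_PP_le h N

theorem exists_monotone_basis (h : Sys c f) :
    ∃ b : SchauderBasis ℝ (lp X 2), ∀ N, ‖b.proj N‖ ≤ 1 := ⟨zbasis h, norm_proj_le h⟩

end Bas

end

end Vale.Agent.P069
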